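import Vale.Agent.P284.H468.Rl
import Mathlib.Analysis.Calculus.FDeriv.Analytic
import Mathlib.Analysis.Complex.CauchyIntegral
import Mathlib.MeasureTheory.Constructions.BorelSpace.Order

/-! # P284 (helper468): the relaxed upper limit of `|f_j|^{p_j}` is plurisubharmonic. -/

open scoped Topology
open Filter Set Metric MeasureTheory

noncomputable section

namespace Vale.Agent.P284.H468

/-- reverse Fatou for circle averages -/
theorem fatou {h : ℕ → ℂ → ℝ} {g : ℂ → ℝ} {ρ x : ℝ} {ε : ℕ → ℝ}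
    (hm : ∀ k, Measurable fun θ => h k (circleMap 0 ρ θ)) (h0 : ∀ k t, 0 ≤ h k t)
    (h1 : ∀ k t, h k t ≤ 1) (gm : Measurable fun θ => g (circleMap 0 ρ θ))
    (g0 : ∀ t, 0 ≤ g t) (g1 : ∀ t, g t ≤ 1)
    (hlim : ∀ θ, ∀ y > g (circleMap 0 ρ θ), ∀ᶠ k in atTop, h k (circleMap 0 ρ θ) ≤ y)
    (hε : Tendsto ε atTop (𝓝 0)) (hx : ∀ᶠ k in atTop, x - ε k ≤ Real.circleAverage (h k) 0 ρ) :
    x ≤ Real.circleAverage g 0 ρ := by
  set H : ℕ → ℂ → ℝ := fun k t => max (h k t - g t) 0 with hH
  have hH0 : ∀ k t, 0 ≤ H k t := fun k t => le_max_right _ _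
  have hH1 : ∀ k t, H k t ≤ 1 := fun k t => max_le (by linarith [h1 k t, g0 t]) zero_le_one
  have hHm : ∀ k, Measurable fun θ => H k (circleMap 0 ρ θ) := fun k =>
    ((hm k).sub gm).max measurable_const
  have bddint : ∀ {f : ℝ → ℝ}, Measurable f → (∀ θ, 0 ≤ f θ) → (∀ θ, f θ ≤ 1) →
      IntervalIntegrable f volume 0 (2 * Real.pi) := by
    intro f hf hf0 hf1
    rw [intervalIntegrable_iff]
    refine Measure.integrableOn_of_bounded (M := 1) ?_ hf.aestronglyMeasurable ?_
    · rw [uIoc_of_le Real.two_pi_pos.le, Real.volume_Ioc]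
      exact ENNReal.ofReal_ne_top
    · exact Eventually.of_forall fun θ => by
        rw [Real.norm_eq_abs, abs_of_nonneg (hf0 θ)]; exact hf1 θ
  have hlimH : Tendsto (fun k => Real.circleAverage (H k) 0 ρ) atTop (𝓝 0) := by
    simp only [Real.circleAverage_def, smul_eq_mul]
    have h2 : Tendsto (fun k => ∫ θ in (0 : ℝ)..2 * Real.pi, H k (circleMap 0 ρ θ)) atTop
        (𝓝 (∫ θ in (0 : ℝ)..2 * Real.pi, (fun _ => (0 : ℝ)) θ)) := by
      refine intervalIntegral.tendsto_integral_filter_of_dominated_convergence (fun _ => (1 : ℝ))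
        ?_ ?_ ?_ ?_
      · exact Eventually.of_forall fun k => (hHm k).aestronglyMeasurable
      · refine Eventually.of_forall fun k => Eventually.of_forall fun θ _ => ?_
        rw [Real.norm_eq_abs, abs_of_nonneg (hH0 _ _)]
        exact hH1 _ _
      · exact intervalIntegrable_const
      · refine Eventually.of_forall fun θ _ => ?_
        rw [Metric.tendsto_atTop]
        intro e he
        obtain ⟨N, hN⟩ := eventually_atTop.1
          (hlim θ (g (circleMap 0 ρ θ) + e / 2) (by linarith))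
        refine ⟨N, fun k hk => ?_⟩
        rw [Real.dist_eq, sub_zero, abs_of_nonneg (hH0 _ _)]
        have h3 : H k (circleMap 0 ρ θ) ≤ e / 2 := max_le (by linarith [hN k hk]) (by linarith)
        linarith
    rw [intervalIntegral.integral_zero] at h2
    simpa using h2.const_mul (2 * Real.pi)⁻¹
  have hci : ∀ k, CircleIntegrable (H k) 0 ρ := fun k =>
    bddint (hHm k) (fun θ => hH0 _ _) fun θ => hH1 _ _
  have gci : CircleIntegrable g 0 ρ := bddint gm (fun θ => g0 _) fun θ => g1 _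
  have hhci : ∀ k, CircleIntegrable (h k) 0 ρ := fun k =>
    bddint (hm k) (fun θ => h0 _ _) fun θ => h1 _ _
  have hle : ∀ᶠ k in atTop, x ≤ Real.circleAverage g 0 ρ + (Real.circleAverage (H k) 0 ρ + ε k) := by
    filter_upwards [hx] with k hk
    have h3 : Real.circleAverage (h k) 0 ρ ≤ Real.circleAverage (g + H k) 0 ρ := by
      refine Real.circleAverage_mono (hhci k) (gci.add (hci k)) fun t _ => ?_
      have := le_max_left (h k t - g t) 0
      simp only [Pi.add_apply, hH]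
      linarith
    rw [Real.circleAverage_add gci (hci k)] at h3
    linarith
  have h5 : Tendsto (fun k => Real.circleAverage g 0 ρ + (Real.circleAverage (H k) 0 ρ + ε k)) atTop
      (𝓝 (Real.circleAverage g 0 ρ + (0 + 0))) := tendsto_const_nhds.add (hlimH.add hε)
  simpa using ge_of_tendsto h5 hle

variable {V : Type*} [NormedAddCommGroup V] [NormedSpace ℂ V]

open Classical in
/-- the functions `|f_j|^{p_j}`, zero outside of `S` -/
def pw (S : Set V) (f : ℕ → V → ℂ) (p : ℕ → ℝ) (j : ℕ) (z : V) : ℝ :=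
  if z ∈ S then ‖f j z‖ ^ p j else 0

variable {S : Set V} {f : ℕ → V → ℂ} {p : ℕ → ℝ}

omit [NormedAddCommGroup V] [NormedSpace ℂ V] in
theorem pw_of_mem {j : ℕ} {z : V} (hz : z ∈ S) : pw S f p j z = ‖f j z‖ ^ p j := if_pos hz

omit [NormedAddCommGroup V] [NormedSpace ℂ V] in
theorem pw_nonneg (j : ℕ) (z : V) : 0 ≤ pw S f p j z := by
  unfold pw
  split_ifs
  · positivity
  · exact le_rfl

omit [NormedAddCommGroup V] [NormedSpace ℂ V] in
theorem pw_le_one (hp : ∀ j, 0 < p j) (hf1 : ∀ j, ∀ z ∈ S, ‖f j z‖ ≤ 1) (j : ℕ) (z : V) :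
    pw S f p j z ≤ 1 := by
  unfold pw
  split_ifs with h
  · exact Real.rpow_le_one (norm_nonneg _) (hf1 j z h) (hp j).le
  · exact zero_le_one

/-- The relaxed upper limit satisfies the sub-mean inequality on holomorphic discs. -/
theorem rl_mean (hS : IsOpen S) (hf : ∀ j, DifferentiableOn ℂ (f j) S)
    (hf1 : ∀ j, ∀ z ∈ S, ‖f j z‖ ≤ 1) (hp : ∀ j, 0 < p j) (φ : ℂ → V)
    (hφ : DifferentiableOn ℂ φ (ball 0 1)) (hφS : ∀ t ∈ ball (0 : ℂ) 1, φ t ∈ S) (ρ : ℝ)
    (hρ : ρ ∈ Ioo (0 : ℝ) 1) :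
    rl (pw S f p) (φ 0) ≤ Real.circleAverage (fun t => rl (pw S f p) (φ t)) 0 ρ := by
  have w0 := pw_nonneg (S := S) (f := f) (p := p)
  have w1 := pw_le_one (S := S) (f := f) hp hf1
  obtain ⟨j, w, hj, hw, hjw⟩ := exists_seq w0 (φ 0)
  have hρb : closedBall (0 : ℂ) ρ ⊆ ball 0 1 := closedBall_subset_ball hρ.2
  have hcφ : ContinuousOn φ (closedBall 0 ρ) := hφ.continuousOn.mono hρb
  -- the translated discs stay in `S`
  obtain ⟨δ, hδ, hδS⟩ : ∃ δ > 0, ∀ t ∈ closedBall (0 : ℂ) ρ, ∀ y : V, ‖y‖ < δ → φ t + y ∈ S := by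
    have hK : IsCompact (φ '' closedBall 0 ρ) := (isCompact_closedBall _ _).image_of_continuousOn hcφ
    obtain ⟨δ, hδ, hsub⟩ := hK.exists_thickening_subset_open hS (by
      rintro _ ⟨t, ht, rfl⟩; exact hφS t (hρb ht))
    refine ⟨δ, hδ, fun t ht y hy => hsub ?_⟩
    rw [mem_thickening_iff]
    exact ⟨φ t, mem_image_of_mem _ ht, by rw [dist_eq_norm, add_sub_cancel_left]; exact hy⟩
  have hev : ∀ᶠ k in atTop, ‖w k - φ 0‖ < δ := by
    have := (tendsto_iff_dist_tendsto_zero.1 hw).eventually (gt_mem_nhds hδ)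
    simpa only [dist_eq_norm] using this
  have hmem : ∀ θ, circleMap 0 ρ θ ∈ closedBall (0 : ℂ) ρ := fun θ =>
    sphere_subset_closedBall (circleMap_mem_sphere 0 hρ.1.le θ)
  set h : ℕ → ℂ → ℝ := fun k t => pw S f p (j k) (φ t + (w k - φ 0)) with hh
  have key : ∀ k, ‖w k - φ 0‖ < δ →
      (Measurable fun θ => h k (circleMap 0 ρ θ)) ∧
      rl (pw S f p) (φ 0) - 1 / (k + 1) ≤ Real.circleAverage (h k) 0 ρ := by
    intro k hk
    set y : V := w k - φ 0 with hy
    set U : Set ℂ := ball 0 1 ∩ φ ⁻¹' ((fun x => x + y) ⁻¹' S) with hU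
    have hUo : IsOpen U := hφ.continuousOn.isOpen_inter_preimage isOpen_ball
      (hS.preimage (continuous_add_const y))
    have hUb : closedBall (0 : ℂ) ρ ⊆ U := fun t ht => ⟨hρb ht, hδS t ht y hk⟩
    set G : ℂ → ℂ := fun t => f (j k) (φ t + y) with hG
    have hGd : DifferentiableOn ℂ G U := by
      intro t ht
      have h1 : DifferentiableAt ℂ (f (j k)) (φ t + y) :=
        (hf _ _ ht.2).differentiableAt (hS.mem_nhds ht.2)
      have h2 : DifferentiableAt ℂ (fun t => φ t + y) t :=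
        ((hφ t ht.1).differentiableAt (isOpen_ball.mem_nhds ht.1)).add_const y
      exact (DifferentiableAt.comp t h1 h2).differentiableWithinAt
    have hGa : AnalyticOnNhd ℂ G (closedBall 0 ρ) := (hGd.analyticOnNhd hUo).mono hUb
    have hhG : ∀ t ∈ closedBall (0 : ℂ) ρ, h k t = ‖G t‖ ^ p (j k) := fun t ht =>
      pw_of_mem (hδS t ht y hk)
    refine ⟨?_, ?_⟩
    · have h3 : (fun θ => h k (circleMap 0 ρ θ)) = fun θ => ‖G (circleMap 0 ρ θ)‖ ^ p (j k) := by
        funext θ
        exact hhG _ (hmem θ)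
      rw [h3]
      have h4 : Continuous fun θ => G (circleMap 0 ρ θ) :=
        hGa.continuousOn.comp_continuous (continuous_circleMap 0 ρ) hmem
      exact (h4.norm.rpow_const fun _ => Or.inr (hp _).le).measurable
    · have h5 := rpow_le_average hρ.1 (hp (j k)) hGa
      have h6 : ‖G 0‖ ^ p (j k) = pw S f p (j k) (w k) := by
        have h7 : φ 0 + y = w k := by rw [hy, add_sub_cancel]
        have h8 : w k ∈ S := by
          rw [← h7]; exact hδS 0 (mem_closedBall_self hρ.1.le) y hk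
        rw [pw_of_mem h8, hG]
        simp only [h7]
      have h9 : Real.circleAverage (h k) 0 ρ = Real.circleAverage (fun t => ‖G t‖ ^ p (j k)) 0 ρ :=
        Real.circleAverage_congr_sphere fun t ht => hhG t (by
          rw [abs_of_pos hρ.1] at ht; exact sphere_subset_closedBall ht)
      rw [h9]
      rw [h6] at h5
      exact (hjw k).trans h5
  obtain ⟨N, hN⟩ := eventually_atTop.1 hev
  refine fatou (h := fun k => h (k + N)) (ε := fun k => 1 / ((k + N : ℕ) + 1)) (fun k =>
    (key _ (hN _ (Nat.le_add_left _ _))).1) (fun k t => w0 _ _) (fun k t => w1 _ _) ?_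
    (fun t => rl_nonneg w0 w1 _) (fun t => rl_le_one w0 w1 _) ?_ ?_ ?_
  · refine UpperSemicontinuous.measurable ?_
    have hc : Continuous fun θ => φ (circleMap 0 ρ θ) :=
      hcφ.comp_continuous (continuous_circleMap 0 ρ) hmem
    intro θ
    exact UpperSemicontinuousAt.comp (f := rl (pw S f p)) (rl_usc w0 w1 _) hc.continuousAt
  · intro θ y hy
    have h2 := lt_of_rl_lt w1 hy
    have h3 : Tendsto (fun k => (j (k + N), φ (circleMap 0 ρ θ) + (w (k + N) - φ 0))) atTop
        (atTop ×ˢ 𝓝 (φ (circleMap 0 ρ θ))) := by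
      refine Tendsto.prodMk (hj.comp (tendsto_add_atTop_nat N)) ?_
      have h4 : Tendsto (fun k => w (k + N)) atTop (𝓝 (φ 0)) := hw.comp (tendsto_add_atTop_nat N)
      have h5 := (tendsto_const_nhds (x := φ (circleMap 0 ρ θ))).add
        (h4.sub (tendsto_const_nhds (x := φ 0)))
      simpa using h5
    filter_upwards [h3.eventually h2] with k hk
    exact hk.le
  · exact (tendsto_one_div_add_atTop_nhds_zero_nat (𝕜 := ℝ)).comp (tendsto_add_atTop_nat N)
  · exact Eventually.of_forall fun k => (key _ (hN _ (Nat.le_add_left _ _))).2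

end Vale.Agent.P284.H468
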