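import Vale.Agent.P284.H894.G.Spec
import Vale.Agent.P284.H468.Mean

/-! # P284 (helper468), block G4: the relaxed upper limit of `|F_j|^{p_j}`. -/

open scoped Topology
open Filter Set Metric

noncomputable section

namespace Vale.Agent.P284.H468

open Vale.Agent.P272.K Vale.Agent.P284.H894 Vale.Agent.P284.H894.G

section
variable {n : ℕ} {Γ : Type} [Group Γ] {C : Coc n Γ} {m : ℕ}

theorem change_le (F : ℕ → HS C m) (p : ℕ → ℝ) (hp : ∀ j, 0 < p j) (hp0 : Tendsto p atTop (𝓝 0))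
    (hF : ∀ j γ b, ∀ w ∈ C.V b, ‖(F j).F γ b w‖ ≤ 1) {γ : Γ} {a b : C.I} {z : Cm n}
    (hz : z ∈ C.O a b) (hza : z ∈ C.V a) (hzb : C.T a b z ∈ C.V b) :
    rl (pw (C.V a) (fun j => (F j).F γ a) p) z ≤
      rl (pw (C.V b) (fun j => (F j).F (γ * C.κ a b z) b) p) (C.T a b z) := by
  refine le_of_forall_gt fun x hx => ?_
  obtain ⟨y, hy1, hy2⟩ := exists_between hx
  have hW := lt_of_rl_lt (pw_le_one hp fun j => hF j _ b) hy1
  have hO : IsOpen (C.O a b) := C.O_open a b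
  have hVo : ∀ b, IsOpen (C.V b) := fun b => isOpen_ball
  have hTc : ContinuousAt (C.T a b) z := ((C.T_holo a b).differentiableAt (hO.mem_nhds hz)).continuousAt
  have hgc : ContinuousAt (C.g a b) z := ((C.g_holo a b).differentiableAt (hO.mem_nhds hz)).continuousAt
  have hT2 : Tendsto (fun q : ℕ × Cm n => (q.1, C.T a b q.2)) (atTop ×ˢ 𝓝 z)
      (atTop ×ˢ 𝓝 (C.T a b z)) := tendsto_fst.prodMk (hTc.tendsto.comp tendsto_snd)
  have hg0 : ‖C.g a b z‖ ≠ 0 := norm_ne_zero_iff.2 (C.g_ne a b z hz)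
  have hfac : Tendsto (fun q : ℕ × Cm n => ‖C.g a b q.2‖ ^ ((m : ℝ) * p q.1)) (atTop ×ˢ 𝓝 z)
      (𝓝 1) := by
    have h1 : Tendsto (fun q : ℕ × Cm n => ‖C.g a b q.2‖) (atTop ×ˢ 𝓝 z) (𝓝 ‖C.g a b z‖) :=
      hgc.norm.tendsto.comp tendsto_snd
    have h2 : Tendsto (fun q : ℕ × Cm n => (m : ℝ) * p q.1) (atTop ×ˢ 𝓝 z) (𝓝 ((m : ℝ) * 0)) :=
      (hp0.comp tendsto_fst).const_mul _
    have h3 := h1.rpow h2 (Or.inl hg0)
    simpa using h3
  have hfy : Tendsto (fun q : ℕ × Cm n => ‖C.g a b q.2‖ ^ ((m : ℝ) * p q.1) * y) (atTop ×ˢ 𝓝 z)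
      (𝓝 (1 * y)) := hfac.mul_const y
  rw [one_mul] at hfy
  have hy0 : 0 ≤ y := (rl_nonneg (pw_nonneg (S := C.V b)
    (f := fun j => (F j).F (γ * C.κ a b z) b) (p := p)) (pw_le_one hp fun j => hF j _ b) _).trans
    hy1.le
  obtain ⟨x', hx'1, hx'2⟩ := exists_between hy2
  refine lt_of_le_of_lt (rl_le_of pw_nonneg (x := x') ?_) hx'2
  have hev1 : ∀ᶠ q : ℕ × Cm n in atTop ×ˢ 𝓝 z, q.2 ∈ C.O a b ∧ q.2 ∈ C.V a ∧
      C.T a b q.2 ∈ C.V b ∧ C.κ a b q.2 = C.κ a b z := by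
    have h0 : ∀ᶠ w in 𝓝 z, w ∈ C.O a b ∧ w ∈ C.V a ∧
        C.T a b w ∈ C.V b ∧ C.κ a b w = C.κ a b z := by
      filter_upwards [hO.mem_nhds hz, (hVo a).mem_nhds hza, hTc ((hVo b).mem_nhds hzb),
        C.κ_loc a b z hz] with w h1 h2 h3 h4
      exact ⟨h1, h2, h3, h4⟩
    exact (tendsto_snd (f := atTop (α := ℕ)) (g := 𝓝 z)).eventually h0
  filter_upwards [hT2.eventually hW, hev1, hfy.eventually (gt_mem_nhds hx'1)] with q h1 h2 h3
  obtain ⟨h21, h22, h23, h24⟩ := h2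
  rw [pw_of_mem h23] at h1
  rw [pw_of_mem h22]
  have h5 := (F q.1).change γ a b q.2 h21 h22 h23
  rw [h24] at h5
  rw [h5, norm_mul, norm_pow, Real.mul_rpow (by positivity) (norm_nonneg _), ← Real.rpow_natCast,
    ← Real.rpow_mul (norm_nonneg _)]
  refine le_trans (mul_le_mul_of_nonneg_left h1.le ?_) h3.le
  exact Real.rpow_nonneg (norm_nonneg _) _

theorem change_eq (F : ℕ → HS C m) (p : ℕ → ℝ) (hp : ∀ j, 0 < p j) (hp0 : Tendsto p atTop (𝓝 0))
    (hF : ∀ j γ b, ∀ w ∈ C.V b, ‖(F j).F γ b w‖ ≤ 1) {γ : Γ} {a b : C.I} {z : Cm n}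
    (hz : z ∈ C.O a b) (hza : z ∈ C.V a) (hzb : C.T a b z ∈ C.V b) :
    rl (pw (C.V a) (fun j => (F j).F γ a) p) z =
      rl (pw (C.V b) (fun j => (F j).F (γ * C.κ a b z) b) p) (C.T a b z) := by
  refine le_antisymm (change_le F p hp hp0 hF hz hza hzb) ?_
  have h1 : C.T a b z ∈ C.O b a := C.T_mem a b z hz
  have hzaa : z ∈ C.O a a := C.trans_mem a b a z hz h1
  have h2 : C.T b a (C.T a b z) = z := by
    rw [← C.trans_T a b a z hz h1, C.T_self a z hzaa]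
  have h3 : C.κ a b z * C.κ b a (C.T a b z) = 1 := by
    rw [← C.trans_κ a b a z hz h1, C.κ_self a z hzaa]
  have h4 := change_le F p hp hp0 hF (γ := γ * C.κ a b z) h1 hzb (by rw [h2]; exact hza)
  rw [h2, mul_assoc, h3, mul_one] at h4
  exact h4

end

/-- **Block G4.** -/
theorem g4Stmt : G4Stmt := by
  intro n Γ _ C m F p hp hp0 hF
  have hVo : ∀ b, IsOpen (C.V b) := fun b => isOpen_ball
  refine ⟨{ v := fun γ a => rl (pw (C.V a) (fun j => (F j).F γ a) p)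
            nonneg := fun γ a z => rl_nonneg pw_nonneg (pw_le_one hp fun j => hF j _ a) z
            le_one := fun γ a z => rl_le_one pw_nonneg (pw_le_one hp fun j => hF j _ a) z
            change := fun γ a b z hz hza hzb => change_eq F p hp hp0 hF hz hza hzb
            usc := fun γ a z _ => rl_usc pw_nonneg (pw_le_one hp fun j => hF j _ a) z
            mean := fun γ a φ hφ hφV ρ hρ => rl_mean (hVo a) (fun j => (F j).holo γ a)
              (fun j => hF j γ a) hp φ hφ hφV ρ hρ }, ?_, ?_⟩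
  · intro γ b U α hU hUV h w hw
    refine rl_le_of pw_nonneg ?_
    filter_upwards [tendsto_snd.eventually (hU.mem_nhds hw)] with q hq
    rw [pw_of_mem (hUV hq)]
    exact h _ _ hq
  · intro γ b K β hK hKV h
    choose w hwK hw using h
    obtain ⟨w0, hw0, φ, hφ, hlim⟩ := hK.tendsto_subseq hwK
    refine ⟨w0, hw0, le_rl_of (pw_le_one hp fun j => hF j _ b) ?_⟩
    have h2 : Tendsto (fun k => (φ k, w (φ k))) atTop (atTop ×ˢ 𝓝 w0) :=
      hφ.tendsto_atTop.prodMk hlim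
    refine h2.frequently (Eventually.of_forall fun k => ?_).frequently
    simp only
    rw [pw_of_mem (hKV (hwK _))]
    exact hw _

end Vale.Agent.P284.H468
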