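import Vale.Agent.P284.H468.Sub
import Mathlib.Topology.Semicontinuity.Basic
import Mathlib.MeasureTheory.Integral.Lebesgue.Add
import Mathlib.MeasureTheory.Integral.DominatedConvergence

/-! # P284 (helper468): relaxed upper limits of functions with values in `[0,1]`. -/

open scoped Topology
open Filter Set Metric

noncomputable section

namespace Vale.Agent.P284.H468

section
variable {Y : Type*} [TopologicalSpace Y]

/-- relaxed upper limit -/
def rl (W : ℕ → Y → ℝ) (z : Y) : ℝ := limsup (fun q : ℕ × Y => W q.1 q.2) (atTop ×ˢ 𝓝 z)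

variable {W : ℕ → Y → ℝ} (h0 : ∀ j z, 0 ≤ W j z) (h1 : ∀ j z, W j z ≤ 1)

include h1 in
theorem bddAbove (z : Y) : IsBoundedUnder (· ≤ ·) (atTop ×ˢ 𝓝 z) fun q : ℕ × Y => W q.1 q.2 :=
  ⟨1, by simp only [eventually_map]; exact Eventually.of_forall fun q => h1 _ _⟩

include h0 in
theorem cobdd (z : Y) : IsCoboundedUnder (· ≤ ·) (atTop ×ˢ 𝓝 z) fun q : ℕ × Y => W q.1 q.2 := by
  refine IsBoundedUnder.isCoboundedUnder_le ?_
  exact ⟨0, by simp only [eventually_map]; exact Eventually.of_forall fun q => h0 _ _⟩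

include h0 in
theorem rl_le_of {z : Y} {x : ℝ} (h : ∀ᶠ q : ℕ × Y in atTop ×ˢ 𝓝 z, W q.1 q.2 ≤ x) :
    rl W z ≤ x := limsup_le_of_le (cobdd h0 z) h

include h1 in
theorem le_rl_of {z : Y} {x : ℝ} (h : ∃ᶠ q : ℕ × Y in atTop ×ˢ 𝓝 z, x ≤ W q.1 q.2) :
    x ≤ rl W z := le_limsup_of_frequently_le h (bddAbove h1 z)

include h1 in
theorem lt_of_rl_lt {z : Y} {x : ℝ} (h : rl W z < x) :
    ∀ᶠ q : ℕ × Y in atTop ×ˢ 𝓝 z, W q.1 q.2 < x := eventually_lt_of_limsup_lt h (bddAbove h1 z)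

include h0 h1 in
theorem rl_nonneg (z : Y) : 0 ≤ rl W z :=
  le_rl_of h1 (Eventually.of_forall fun _ => h0 _ _).frequently

include h0 h1 in
theorem rl_le_one (z : Y) : rl W z ≤ 1 := rl_le_of h0 (Eventually.of_forall fun _ => h1 _ _)

include h0 h1 in
theorem rl_usc (z : Y) : UpperSemicontinuousAt (rl W) z := by
  intro x hx
  obtain ⟨y, hy1, hy2⟩ := exists_between hx
  have h2 := lt_of_rl_lt h1 hy1
  rw [eventually_prod_iff] at h2
  obtain ⟨pa, ha, pb, hb, hab⟩ := h2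
  filter_upwards [eventually_eventually_nhds.2 hb] with w hw
  refine lt_of_le_of_lt (rl_le_of h0 ?_) hy2
  filter_upwards [ha.prod_mk hw] with q hq
  exact (hab hq.1 hq.2).le

include h0 in
/-- a sequence realising the relaxed upper limit -/
theorem exists_seq [FirstCountableTopology Y] (z : Y) :
    ∃ (j : ℕ → ℕ) (w : ℕ → Y), Tendsto j atTop atTop ∧ Tendsto w atTop (𝓝 z) ∧
      ∀ k : ℕ, rl W z - 1 / (k + 1) ≤ W (j k) (w k) := by
  obtain ⟨U, hU⟩ := (𝓝 z).exists_antitone_basis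
  have h2 : ∀ k : ℕ, ∃ q : ℕ × Y, (k ≤ q.1 ∧ q.2 ∈ U k) ∧ rl W z - 1 / (k + 1) ≤ W q.1 q.2 := by
    intro k
    by_contra hcon
    push Not at hcon
    have h3 : rl W z ≤ rl W z - 1 / (k + 1) := by
      refine rl_le_of h0 ?_
      filter_upwards [(eventually_ge_atTop k).prod_mk (hU.1.mem_of_mem (i := k) trivial)]
        with q hq
      exact (hcon q hq).le
    have h4 : (0 : ℝ) < 1 / (k + 1) := by positivity
    linarith
  choose q hq1 hq2 using h2
  refine ⟨fun k => (q k).1, fun k => (q k).2, ?_, ?_, hq2⟩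
  · exact tendsto_atTop_mono (fun k => (hq1 k).1) tendsto_id
  · exact hU.tendsto fun k => (hq1 k).2

end

end Vale.Agent.P284.H468
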