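import Mathlib.Analysis.Complex.JensenFormula

/-! # P284 (helper468): `|G|^p` is subharmonic. -/

open scoped Topology
open Filter Set Metric Real

noncomputable section

namespace Vale.Agent.P284.H468

/-- Jensen: `log |G(0)|` is at most the mean of `log |G|` over a circle. -/
theorem log_le_average {G : ℂ → ℂ} {ρ : ℝ} (hρ : 0 < ρ) (hG : AnalyticOnNhd ℂ G (closedBall 0 ρ))
    (h0 : G 0 ≠ 0) : Real.log ‖G 0‖ ≤ Real.circleAverage (fun t => Real.log ‖G t‖) 0 ρ := by
  have hG' : AnalyticOnNhd ℂ G (closedBall 0 |ρ|) := by rwa [abs_of_pos hρ]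
  rw [hG'.circleAverage_log_norm hρ.ne' h0]
  have h1 : 0 ≤ ∑ᶠ u, (MeromorphicOn.divisor G (closedBall 0 |ρ|) u : ℝ) *
      Real.log (ρ * ‖(0 : ℂ) - u‖⁻¹) := by
    refine finsum_nonneg fun u => ?_
    by_cases hu : u ∈ closedBall (0 : ℂ) |ρ|
    · refine mul_nonneg ?_ ?_
      · exact_mod_cast MeromorphicOn.AnalyticOnNhd.divisor_nonneg hG' u
      · rw [mem_closedBall, abs_of_pos hρ, dist_comm, dist_eq_norm] at hu
        by_cases hz : ‖(0 : ℂ) - u‖ = 0
        · rw [hz, inv_zero, mul_zero, Real.log_zero]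
        · have h2 : 0 < ‖(0 : ℂ) - u‖ := lt_of_le_of_ne (norm_nonneg _) (Ne.symm hz)
          refine Real.log_nonneg ?_
          rw [← div_eq_mul_inv, one_le_div h2]
          exact hu
    · rw [Function.locallyFinsuppWithin.apply_eq_zero_of_notMem _ hu]
      simp
  linarith

/-- `|G|^p` is subharmonic. -/
theorem rpow_le_average {G : ℂ → ℂ} {ρ p : ℝ} (hρ : 0 < ρ) (hp : 0 < p)
    (hG : AnalyticOnNhd ℂ G (closedBall 0 ρ)) :
    ‖G 0‖ ^ p ≤ Real.circleAverage (fun t => ‖G t‖ ^ p) 0 ρ := by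
  by_cases h0 : G 0 = 0
  · rw [h0, norm_zero, Real.zero_rpow hp.ne']
    exact Real.circleAverage_nonneg_of_nonneg fun t _ => by positivity
  have hn0 : 0 < ‖G 0‖ := norm_pos_iff.2 h0
  -- scale
  obtain ⟨K, hK, hK1⟩ : ∃ K : ℝ, 0 < K ∧ 1 ≤ p * Real.log (K * ‖G 0‖) := by
    refine ⟨Real.exp (1 / p) / ‖G 0‖, by positivity, ?_⟩
    rw [div_mul_cancel₀ _ hn0.ne', Real.log_exp]
    field_simp
    exact le_rfl
  set H : ℂ → ℂ := fun t => (K : ℂ) * G t with hH
  have hHan : AnalyticOnNhd ℂ H (closedBall 0 ρ) := fun t ht => analyticAt_const.mul (hG t ht)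
  have hHn : ∀ t, ‖H t‖ = K * ‖G t‖ := fun t => by
    rw [hH]; simp only [norm_mul, Complex.norm_real, Real.norm_of_nonneg hK.le]
  have hH0 : H 0 ≠ 0 := mul_ne_zero (by exact_mod_cast hK.ne') h0
  set l := Real.circleAverage (fun t => Real.log ‖H t‖) 0 ρ with hl
  have hl1 : Real.log (K * ‖G 0‖) ≤ l := by
    rw [← hHn]; exact log_le_average hρ hHan hH0
  have hpl : 1 ≤ p * l := hK1.trans (mul_le_mul_of_nonneg_left hl1 hp.le)
  have hci : CircleIntegrable (fun t => Real.log ‖H t‖) 0 ρ := by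
    refine MeromorphicOn.circleIntegrable_log_norm (f := H) ?_
    rw [abs_of_pos hρ]
    exact (hHan.mono sphere_subset_closedBall).meromorphicOn
  have hcont : ContinuousOn (fun t => ‖H t‖ ^ p) (sphere 0 ρ) := by
    refine ContinuousOn.rpow_const ?_ fun _ _ => Or.inr hp.le
    exact (hHan.continuousOn.mono sphere_subset_closedBall).norm
  have hci2 : CircleIntegrable (fun t => ‖H t‖ ^ p) 0 ρ := hcont.circleIntegrable hρ.le
  have hpt : ∀ t, Real.exp (p * l) * (1 + p * (Real.log ‖H t‖ - l)) ≤ ‖H t‖ ^ p := by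
    intro t
    by_cases ht : ‖H t‖ = 0
    · rw [ht, Real.zero_rpow hp.ne', Real.log_zero]
      refine mul_nonpos_of_nonneg_of_nonpos (Real.exp_pos _).le ?_
      nlinarith
    · have h2 : 0 < ‖H t‖ := lt_of_le_of_ne (norm_nonneg _) (Ne.symm ht)
      rw [Real.rpow_def_of_pos h2]
      have h3 : Real.exp (Real.log ‖H t‖ * p) =
          Real.exp (p * l) * Real.exp (p * (Real.log ‖H t‖ - l)) := by
        rw [← Real.exp_add]; ring_nf
      rw [h3]
      refine mul_le_mul_of_nonneg_left ?_ (Real.exp_pos _).le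
      have := Real.add_one_le_exp (p * (Real.log ‖H t‖ - l))
      linarith
  have hci3 : CircleIntegrable
      (fun t => Real.exp (p * l) * (1 + p * (Real.log ‖H t‖ - l))) 0 ρ := by
    have h4 : CircleIntegrable (fun t => (Real.exp (p * l) * p) • Real.log ‖H t‖) 0 ρ :=
      hci.const_fun_smul
    have h5 : CircleIntegrable (fun _ : ℂ => Real.exp (p * l) * (1 - p * l)) 0 ρ :=
      circleIntegrable_const _ _ _
    have h6 : (fun t => Real.exp (p * l) * (1 + p * (Real.log ‖H t‖ - l))) =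
        (fun t => (Real.exp (p * l) * p) • Real.log ‖H t‖) +
          fun _ : ℂ => Real.exp (p * l) * (1 - p * l) := by
      funext t
      simp only [Pi.add_apply, smul_eq_mul]
      ring
    rw [h6]
    exact h4.add h5
  have hav : Real.circleAverage
      (fun t => Real.exp (p * l) * (1 + p * (Real.log ‖H t‖ - l))) 0 ρ = Real.exp (p * l) := by
    have h4 : CircleIntegrable (fun t => (Real.exp (p * l) * p) • Real.log ‖H t‖) 0 ρ :=
      hci.const_fun_smul
    have h5 : CircleIntegrable (fun _ : ℂ => Real.exp (p * l) * (1 - p * l)) 0 ρ :=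
      circleIntegrable_const _ _ _
    have h6 : (fun t => Real.exp (p * l) * (1 + p * (Real.log ‖H t‖ - l))) =
        (fun t => (Real.exp (p * l) * p) • Real.log ‖H t‖) +
          fun _ : ℂ => Real.exp (p * l) * (1 - p * l) := by
      funext t
      simp only [Pi.add_apply, smul_eq_mul]
      ring
    rw [h6, Real.circleAverage_add h4 h5, Real.circleAverage_fun_smul, Real.circleAverage_const,
      ← hl, smul_eq_mul]
    ring
  have h6 : Real.exp (p * l) ≤ Real.circleAverage (fun t => ‖H t‖ ^ p) 0 ρ := by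
    rw [← hav]
    exact Real.circleAverage_mono hci3 hci2 fun t _ => hpt t
  have h7 : Real.circleAverage (fun t => ‖H t‖ ^ p) 0 ρ =
      K ^ p * Real.circleAverage (fun t => ‖G t‖ ^ p) 0 ρ := by
    have : (fun t => ‖H t‖ ^ p) = fun t => (K ^ p) • (‖G t‖ ^ p) := by
      funext t
      rw [hHn, Real.mul_rpow hK.le (norm_nonneg _), smul_eq_mul]
    rw [this, Real.circleAverage_fun_smul, smul_eq_mul]
  have h8 : (K * ‖G 0‖) ^ p ≤ Real.exp (p * l) := by
    rw [Real.rpow_def_of_pos (by positivity), mul_comm]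
    exact Real.exp_le_exp.2 (mul_le_mul_of_nonneg_left hl1 hp.le)
  rw [h7] at h6
  rw [Real.mul_rpow hK.le (norm_nonneg _)] at h8
  exact le_of_mul_le_mul_left (h8.trans h6) (Real.rpow_pos_of_pos hK p)

end Vale.Agent.P284.H468
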